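import Mathlib

/-!
Reversible finite Markov chains: basic facts on powers of the transition matrix.
-/

namespace Vale.Agent.H37

open Finset Matrix

variable {V : Type} [Fintype V] [DecidableEq V]

/-- `π` is a probability vector, `A` a stochastic matrix reversible with respect to `π`. -/
structure RevChain (π : V → ℝ) (A : Matrix V V ℝ) : Prop where
  pi_nonneg : ∀ i, 0 ≤ π i
  pi_sum : ∑ i, π i = 1
  A_nonneg : ∀ i j, 0 ≤ A i j
  A_row : ∀ i, ∑ j, A i j = 1
  rev : ∀ i j, π i * A i j = π j * A j i

variable {π : V → ℝ} {A : Matrix V V ℝ}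

theorem RevChain.pow_nonneg (h : RevChain π A) (s : ℕ) (i j : V) : 0 ≤ (A ^ s) i j := by
  induction s generalizing i j with
  | zero =>
    simp only [pow_zero, Matrix.one_apply]
    split_ifs <;> norm_num
  | succ s ih =>
    rw [pow_succ, Matrix.mul_apply]
    exact Finset.sum_nonneg fun k _ => mul_nonneg (ih i k) (h.A_nonneg k j)

theorem RevChain.pow_row (h : RevChain π A) (s : ℕ) (i : V) : ∑ j, (A ^ s) i j = 1 := by
  induction s generalizing i with
  | zero => simp [Matrix.one_apply]
  | succ s ih =>
    simp only [pow_succ, Matrix.mul_apply]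
    rw [Finset.sum_comm]
    simp only [← Finset.mul_sum, h.A_row, mul_one]
    exact ih i

theorem RevChain.pow_rev (h : RevChain π A) (s : ℕ) (i j : V) :
    π i * (A ^ s) i j = π j * (A ^ s) j i := by
  induction s generalizing i j with
  | zero =>
    simp only [pow_zero, Matrix.one_apply]
    by_cases hij : i = j
    · subst hij; simp
    · have hji : ¬ j = i := fun e => hij e.symm
      simp [hij, hji]
  | succ s ih =>
    have e1 : (A ^ (s + 1)) i j = ∑ k, (A ^ s) i k * A k j := by
      rw [pow_succ, Matrix.mul_apply]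
    have e2 : (A ^ (s + 1)) j i = ∑ k, A j k * (A ^ s) k i := by
      rw [pow_succ', Matrix.mul_apply]
    rw [e1, e2, Finset.mul_sum, Finset.mul_sum]
    refine Finset.sum_congr rfl fun k _ => ?_
    calc π i * ((A ^ s) i k * A k j) = (π i * (A ^ s) i k) * A k j := by ring
      _ = (π k * (A ^ s) k i) * A k j := by rw [ih i k]
      _ = (π k * A k j) * (A ^ s) k i := by ring
      _ = (π j * A j k) * (A ^ s) k i := by rw [h.rev k j]
      _ = π j * (A j k * (A ^ s) k i) := by ring

theorem RevChain.pow_stat (h : RevChain π A) (s : ℕ) (j : V) :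
    ∑ i, π i * (A ^ s) i j = π j := by
  have : ∀ i, π i * (A ^ s) i j = π j * (A ^ s) j i := fun i => h.pow_rev s i j
  simp only [this, ← Finset.mul_sum, h.pow_row, mul_one]

theorem RevChain.stat (h : RevChain π A) (j : V) : ∑ i, π i * A i j = π j := by
  have := h.pow_stat 1 j
  simpa using this

end Vale.Agent.H37
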