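import Mathlib

/-!
The soft threshold `psi` and the local two-point inequality used for pairs of cuts.
-/

namespace Vale.Agent.H37

/-- The soft threshold: `0` below `1/4`, `1` above `3/4`, affine in between. -/
noncomputable def psi (u : ℝ) : ℝ := max 0 (min 1 (2 * u - 1 / 2))

theorem psi_nonneg (u : ℝ) : 0 ≤ psi u := le_max_left _ _

theorem psi_le_one (u : ℝ) : psi u ≤ 1 := by
  unfold psi
  exact max_le (by norm_num) (min_le_left _ _)

theorem psi_of_le {u : ℝ} (h : u ≤ 1 / 4) : psi u = 0 := by
  unfold psi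
  apply max_eq_left
  exact le_trans (min_le_right _ _) (by linarith)

theorem psi_of_ge {u : ℝ} (h : 3 / 4 ≤ u) : psi u = 1 := by
  unfold psi
  have : min 1 (2 * u - 1 / 2) = 1 := min_eq_left (by linarith)
  rw [this]
  exact max_eq_right (by norm_num)

theorem psi_lip (a b : ℝ) : |psi a - psi b| ≤ 2 * |a - b| := by
  unfold psi
  have h1 : |max 0 (min 1 (2 * a - 1 / 2)) - max 0 (min 1 (2 * b - 1 / 2))|
      ≤ |min 1 (2 * a - 1 / 2) - min 1 (2 * b - 1 / 2)| := by
    rw [max_comm 0, max_comm 0]
    exact abs_max_sub_max_le_abs _ _ _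
  have h2 : |min 1 (2 * a - 1 / 2) - min 1 (2 * b - 1 / 2)|
      ≤ |(2 * a - 1 / 2) - (2 * b - 1 / 2)| := by
    have := abs_min_sub_min_le_max (1 : ℝ) (2 * a - 1 / 2) 1 (2 * b - 1 / 2)
    simpa using this
  have h3 : |(2 * a - 1 / 2) - (2 * b - 1 / 2)| = 2 * |a - b| := by
    have : (2 * a - 1 / 2) - (2 * b - 1 / 2) = 2 * (a - b) := by ring
    rw [this, abs_mul, abs_of_pos (by norm_num : (0 : ℝ) < 2)]
  linarith

theorem psi_le_four_mul {u : ℝ} (hu : 0 ≤ u) : psi u ≤ 4 * u := by
  unfold psi
  apply max_le (by linarith)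
  exact le_trans (min_le_right _ _) (by linarith)

theorem one_sub_psi_le {u : ℝ} (hu : u ≤ 1) : 1 - psi u ≤ 4 * (1 - u) := by
  rcases le_or_gt (3 / 4) u with h | h
  · rw [psi_of_ge h]; linarith
  · have := psi_nonneg u
    linarith

/-- If the thresholds differ then the two arguments are not both low and not both high. -/
theorem psi_ne {a b : ℝ} (h : psi a ≠ psi b) :
    (1 / 4 < a ∨ 1 / 4 < b) ∧ (a < 3 / 4 ∨ b < 3 / 4) := by
  constructor
  · by_contra hc
    rw [not_or, not_lt, not_lt] at hc
    exact h (by rw [psi_of_le hc.1, psi_of_le hc.2])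
  · by_contra hc
    rw [not_or, not_lt, not_lt] at hc
    exact h (by rw [psi_of_ge hc.1, psi_of_ge hc.2])

private theorem mid_mid {p00 p01 p10 p11 : ℝ}
    (h00 : 0 ≤ p00) (h01 : 0 ≤ p01) (h10 : 0 ≤ p10) (h11 : 0 ≤ p11)
    (hs : p00 + p01 + p10 + p11 = 1)
    (ha1 : 1 / 8 ≤ p10 + p11) (ha2 : p10 + p11 ≤ 7 / 8)
    (hb1 : 1 / 8 ≤ p01 + p11) (hb2 : p01 + p11 ≤ 7 / 8) :
    1 / 128 ≤ p00 * p11 + p01 * p10 := by
  have hA : 7 / 64 ≤ (p10 + p11) * (p00 + p01) := by
    have : p00 + p01 = 1 - (p10 + p11) := by linarith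
    rw [this]
    nlinarith [mul_nonneg (sub_nonneg.mpr ha1) (sub_nonneg.mpr ha2)]
  have hB : 7 / 64 ≤ (p01 + p11) * (p00 + p10) := by
    have : p00 + p10 = 1 - (p01 + p11) := by linarith
    rw [this]
    nlinarith [mul_nonneg (sub_nonneg.mpr hb1) (sub_nonneg.mpr hb2)]
  have e1 : (p10 + p11) * (p01 + p11) = p11 + p01 * p10 - p00 * p11 := by
    have : p00 = 1 - p01 - p10 - p11 := by linarith
    rw [this]; ring
  have e2 : (p00 + p01) * (p00 + p10) = p00 + p01 * p10 - p00 * p11 := by
    have : p11 = 1 - p00 - p01 - p10 := by linarith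
    rw [this]; ring
  have hm : 0 ≤ p01 * p10 := mul_nonneg h01 h10
  have hn : 0 ≤ p00 * p11 := mul_nonneg h00 h11
  have hm1 : p01 * p10 ≤ p01 := by nlinarith
  have hn1 : p00 * p11 ≤ p00 := by nlinarith
  have hn2 : p00 * p11 ≤ p11 := by nlinarith
  have hprod : (p10 + p11) * (p00 + p01) * ((p01 + p11) * (p00 + p10))
      ≤ p00 * p11 + p01 * p10 := by
    have e3 : (p10 + p11) * (p00 + p01) * ((p01 + p11) * (p00 + p10))
        = ((p10 + p11) * (p01 + p11)) * ((p00 + p01) * (p00 + p10)) := by ring
    rw [e3, e1, e2]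
    set m := p01 * p10 with hmdef
    set n := p00 * p11 with hndef
    have expand : (p11 + m - n) * (p00 + m - n) = n + (m - n) * (p00 + p11 + m - n) := by
      rw [hndef]; ring
    rw [expand]
    have key : (m - n) * (p00 + p11 + m - n) ≤ m := by
      rcases le_total n m with hnm | hnm
      · have h1 : 0 ≤ m - n := by linarith
        have h2 : p00 + p11 + m - n ≤ 1 := by linarith
        have h3 : (m - n) * (p00 + p11 + m - n) ≤ (m - n) * 1 :=
          mul_le_mul_of_nonneg_left h2 h1
        linarith
      · have h1 : m - n ≤ 0 := by linarith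
        have h2 : 0 ≤ p00 + p11 + m - n := by linarith
        have h3 : (m - n) * (p00 + p11 + m - n) ≤ 0 :=
          mul_nonpos_of_nonpos_of_nonneg h1 h2
        linarith
    linarith
  have hAB : 7 / 64 * (7 / 64) ≤ (p10 + p11) * (p00 + p01) * ((p01 + p11) * (p00 + p10)) :=
    mul_le_mul hA hB (by norm_num) (le_trans (by norm_num) hA)
  linarith

private theorem prod_bd {x y : ℝ} (hx : 1 / 8 ≤ x) (hy : 1 / 8 ≤ y) : 1 / 64 ≤ x * y := by
  nlinarith [mul_nonneg (sub_nonneg.mpr hx) (sub_nonneg.mpr hy)]

/-- The case where the first marginal of `p` is low. -/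
private theorem local_low {p00 p01 p10 p11 q00 q01 q10 q11 : ℝ}
    (h00 : 0 ≤ p00) (h01 : 0 ≤ p01) (h10 : 0 ≤ p10) (h11 : 0 ≤ p11)
    (k00 : 0 ≤ q00) (k01 : 0 ≤ q01) (k10 : 0 ≤ q10) (k11 : 0 ≤ q11)
    (hp : p00 + p01 + p10 + p11 = 1) (hq : q00 + q01 + q10 + q11 = 1)
    (ha : p10 + p11 ≤ 1 / 8)
    (h1 : 1 / 4 < p10 + p11 ∨ 1 / 4 < q10 + q11)
    (h3 : 1 / 4 < p01 + p11 ∨ 1 / 4 < q01 + q11)
    (h4 : p01 + p11 < 3 / 4 ∨ q01 + q11 < 3 / 4) :
    1 / 64 ≤ (p00 * q11 + p11 * q00 + p01 * q10 + p10 * q01)
      + 2 * (p00 * p11 + p01 * p10) + 2 * (q00 * q11 + q01 * q10) := by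
  have n1 := mul_nonneg h00 k11
  have n2 := mul_nonneg h11 k00
  have n3 := mul_nonneg h01 k10
  have n4 := mul_nonneg h10 k01
  have n5 := mul_nonneg h00 h11
  have n6 := mul_nonneg h01 h10
  have n7 := mul_nonneg k00 k11
  have n8 := mul_nonneg k01 k10
  have hb : 1 / 4 < q10 + q11 := by
    rcases h1 with h | h
    · linarith
    · exact h
  by_cases hbh : 7 / 8 ≤ q10 + q11
  · -- q is high in the first coordinate
    rcases h3 with h3 | h3
    · -- a' > 1/4
      rcases h4 with h4 | h4
      · -- a' < 3/4 : then b' decides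
        by_cases hb' : 1 / 2 ≤ q01 + q11
        · have := prod_bd (x := p00) (y := q11) (by linarith) (by linarith)
          linarith
        · simp only [not_le] at hb'
          have := prod_bd (x := p01) (y := q10) (by linarith) (by linarith)
          linarith
      · -- b' < 3/4
        have := prod_bd (x := p01) (y := q10) (by linarith) (by linarith)
        linarith
    · -- b' > 1/4
      rcases h4 with h4 | h4
      · have := prod_bd (x := p00) (y := q11) (by linarith) (by linarith)
        linarith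
      · -- b' < 3/4 and b' > 1/4 : a' decides
        by_cases ha' : 1 / 2 ≤ p01 + p11
        · have := prod_bd (x := p01) (y := q10) (by linarith) (by linarith)
          linarith
        · simp only [not_le] at ha'
          have := prod_bd (x := p00) (y := q11) (by linarith) (by linarith)
          linarith
  · simp only [not_le] at hbh
    by_cases hbl : q01 + q11 ≤ 1 / 8
    · -- b' low, so a' > 1/4
      have ha' : 1 / 4 < p01 + p11 := by
        rcases h3 with h | h
        · exact h
        · linarith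
      have := prod_bd (x := p01) (y := q10) (by linarith) (by linarith)
      linarith
    · simp only [not_le] at hbl
      by_cases hbh' : 7 / 8 ≤ q01 + q11
      · have ha' : p01 + p11 < 3 / 4 := by
          rcases h4 with h | h
          · exact h
          · linarith
        have := prod_bd (x := p00) (y := q11) (by linarith) (by linarith)
        linarith
      · simp only [not_le] at hbh'
        have := mid_mid k00 k01 k10 k11 hq (by linarith) (by linarith) (by linarith) (by linarith)
        linarith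

/-- The local inequality: if both soft thresholds differ between the two ends, then the
three `both cuts separate` probabilities add up to at least `1/64`. -/
theorem local_lemma {p00 p01 p10 p11 q00 q01 q10 q11 : ℝ}
    (h00 : 0 ≤ p00) (h01 : 0 ≤ p01) (h10 : 0 ≤ p10) (h11 : 0 ≤ p11)
    (k00 : 0 ≤ q00) (k01 : 0 ≤ q01) (k10 : 0 ≤ q10) (k11 : 0 ≤ q11)
    (hp : p00 + p01 + p10 + p11 = 1) (hq : q00 + q01 + q10 + q11 = 1)
    (hS : psi (p10 + p11) ≠ psi (q10 + q11))
    (hS' : psi (p01 + p11) ≠ psi (q01 + q11)) :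
    1 / 64 ≤ (p00 * q11 + p11 * q00 + p01 * q10 + p10 * q01)
      + 2 * (p00 * p11 + p01 * p10) + 2 * (q00 * q11 + q01 * q10) := by
  obtain ⟨s1, s2⟩ := psi_ne hS
  obtain ⟨s3, s4⟩ := psi_ne hS'
  by_cases ha : p10 + p11 ≤ 1 / 8
  · exact local_low h00 h01 h10 h11 k00 k01 k10 k11 hp hq ha s1 s3 s4
  simp only [not_le] at ha
  by_cases ha2 : 7 / 8 ≤ p10 + p11
  · -- flip the first coordinate
    have := local_low (p00 := p10) (p01 := p11) (p10 := p00) (p11 := p01)
      (q00 := q10) (q01 := q11) (q10 := q00) (q11 := q01)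
      h10 h11 h00 h01 k10 k11 k00 k01 (by linarith) (by linarith) (by linarith)
      (by rcases s2 with h | h
          · left; linarith
          · right; linarith)
      (by rcases s3 with h | h
          · left; linarith
          · right; linarith)
      (by rcases s4 with h | h
          · left; linarith
          · right; linarith)
    linarith
  simp only [not_le] at ha2
  by_cases hb : p01 + p11 ≤ 1 / 8
  · -- swap the two coordinates
    have := local_low (p00 := p00) (p01 := p10) (p10 := p01) (p11 := p11)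
      (q00 := q00) (q01 := q10) (q10 := q01) (q11 := q11)
      h00 h10 h01 h11 k00 k10 k01 k11 (by linarith) (by linarith) (by linarith)
      s3 s1 s2
    linarith
  simp only [not_le] at hb
  by_cases hb2 : 7 / 8 ≤ p01 + p11
  · -- swap and flip
    have := local_low (p00 := p01) (p01 := p11) (p10 := p00) (p11 := p10)
      (q00 := q01) (q01 := q11) (q10 := q00) (q11 := q10)
      h01 h11 h00 h10 k01 k11 k00 k10 (by linarith) (by linarith) (by linarith)
      (by rcases s4 with h | h
          · left; linarith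
          · right; linarith)
      (by rcases s1 with h | h
          · left; linarith
          · right; linarith)
      (by rcases s2 with h | h
          · left; linarith
          · right; linarith)
    linarith
  simp only [not_le] at hb2
  have := mid_mid h00 h01 h10 h11 hp (by linarith) (by linarith) (by linarith) (by linarith)
  have n7 := mul_nonneg k00 k11
  have n8 := mul_nonneg k01 k10
  have n1 := mul_nonneg h00 k11
  have n2 := mul_nonneg h11 k00
  have n3 := mul_nonneg h01 k10
  have n4 := mul_nonneg h10 k01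
  linarith

end Vale.Agent.H37
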