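import Vale.Agent.H37.PairStmt

/-!
Pair inequality, part 1: the smoothing kernel, the two-sided separation probabilities and
the local step.
-/

namespace Vale.Agent.H37

open Finset Matrix

variable {V : Type} [Fintype V] [DecidableEq V]
variable {π : V → ℝ} {A : Matrix V V ℝ} {α : ℝ} {G : Matrix V V ℝ}

/-- The smoothing kernel as a matrix. -/
noncomputable def kern (α : ℝ) (G : Matrix V V ℝ) : Matrix V V ℝ := fun i j => (1 - α) * G i j

theorem smooth_eq_kern (α : ℝ) (G : Matrix V V ℝ) (f : V → ℝ) (i : V) :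
    smooth α G f i = ∑ l, kern α G i l * f l := by
  unfold smooth kern
  rw [Finset.mul_sum]
  exact Finset.sum_congr rfl fun l _ => by ring

theorem kern_nonneg (hG : IsResolvent π A α G) (hα1 : α < 1) (i j : V) : 0 ≤ kern α G i j :=
  mul_nonneg (by linarith) (hG.nonneg i j)

theorem kern_row (hG : IsResolvent π A α G) (hα1 : α < 1) (i : V) : ∑ j, kern α G i j = 1 :=
  smooth_row hG hα1 i

theorem kern_rev (hG : IsResolvent π A α G) (i j : V) :
    π i * kern α G i j = π j * kern α G j i := by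
  unfold kern
  have := hG.rev i j
  linear_combination (1 - α) * this

/-- One-step equation of the kernel. -/
theorem kern_step (hG : IsResolvent π A α G) (i b : V) :
    kern α G i b = (1 - α) * (if i = b then 1 else 0) + α * ∑ k, A i k * kern α G k b := by
  unfold kern
  have h1 := congrFun (congrFun hG.eq_one_add i) b
  rw [Matrix.add_apply, Matrix.smul_apply, Matrix.one_apply, Matrix.mul_apply] at h1
  have h2 : ∑ k, A i k * ((1 - α) * G k b) = (1 - α) * ∑ k, A i k * G k b := by
    rw [Finset.mul_sum]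
    exact Finset.sum_congr rfl fun k _ => by ring
  rw [h2]
  simp only [smul_eq_mul] at h1
  rw [h1]
  ring

/-- The truncated kernel. -/
noncomputable def kernK (α : ℝ) (A : Matrix V V ℝ) (K : ℕ) : Matrix V V ℝ :=
  fun i j => (1 - α) * ∑ k ∈ Finset.range K, α ^ k * (A ^ k) i j

theorem kernK_nonneg (h : RevChain π A) (hα0 : 0 ≤ α) (hα1 : α < 1) (K : ℕ) (i j : V) :
    0 ≤ kernK α A K i j :=
  mul_nonneg (by linarith)
    (Finset.sum_nonneg fun k _ => mul_nonneg (pow_nonneg hα0 k) (h.pow_nonneg k i j))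

/-- `kern = kernK + remainder`, the remainder being nonnegative with row sums `α^K`. -/
theorem kern_split (hG : IsResolvent π A α G) (K : ℕ) (i j : V) :
    kern α G i j = kernK α A K i j + α ^ K * ((1 - α) * (A ^ K * G) i j) := by
  unfold kern kernK
  rw [hG.expand_apply K i j]
  ring

theorem kernK_le (hG : IsResolvent π A α G) (h : RevChain π A) (hα0 : 0 ≤ α) (hα1 : α < 1)
    (K : ℕ) (i j : V) : kernK α A K i j ≤ kern α G i j := by
  rw [kern_split hG K i j]
  have : 0 ≤ α ^ K * ((1 - α) * (A ^ K * G) i j) :=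
    mul_nonneg (pow_nonneg hα0 K) (mul_nonneg (by linarith) (hG.rem_nonneg h K i j))
  linarith

theorem kern_sub_row (hG : IsResolvent π A α G) (h : RevChain π A) (hα1 : α < 1) (K : ℕ) (i : V) :
    ∑ j, (kern α G i j - kernK α A K i j) = α ^ K := by
  have e : ∀ j, kern α G i j - kernK α A K i j = α ^ K * ((1 - α) * (A ^ K * G) i j) := by
    intro j
    rw [kern_split hG K i j]; ring
  simp only [e]
  rw [← Finset.mul_sum, ← Finset.mul_sum, hG.rem_row h K i]
  have : (1 : ℝ) - α ≠ 0 := by linarith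
  field_simp

/-- Both cuts separate `a` and `b` (for `0/1` functions this is an indicator). -/
noncomputable def sepf (f f' : V → ℝ) (a b : V) : ℝ := |f a - f b| * |f' a - f' b|

omit [Fintype V] [DecidableEq V] in
theorem sepf_nonneg (f f' : V → ℝ) (a b : V) : 0 ≤ sepf f f' a b :=
  mul_nonneg (abs_nonneg _) (abs_nonneg _)

omit [Fintype V] [DecidableEq V] in
theorem abs_sub_le_one_of_bool {f : V → ℝ} (hf : ∀ i, f i = 0 ∨ f i = 1) (a b : V) :
    |f a - f b| ≤ 1 := by
  rcases hf a with h1 | h1 <;> rcases hf b with h2 | h2 <;> rw [h1, h2] <;> norm_num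

omit [Fintype V] [DecidableEq V] in
theorem sepf_le_one {f f' : V → ℝ} (hf : ∀ i, f i = 0 ∨ f i = 1) (hf' : ∀ i, f' i = 0 ∨ f' i = 1)
    (a b : V) : sepf f f' a b ≤ 1 := by
  unfold sepf
  have h1 := abs_sub_le_one_of_bool hf a b
  have h2 := abs_sub_le_one_of_bool hf' a b
  calc |f a - f b| * |f' a - f' b| ≤ 1 * 1 :=
        mul_le_mul h1 h2 (abs_nonneg _) (by norm_num)
    _ = 1 := by norm_num

omit [Fintype V] [DecidableEq V] in
theorem sepf_self (f f' : V → ℝ) (a : V) : sepf f f' a a = 0 := by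
  unfold sepf; simp

omit [Fintype V] [DecidableEq V] in
theorem sepf_comm (f f' : V → ℝ) (a b : V) : sepf f f' a b = sepf f f' b a := by
  unfold sepf; rw [abs_sub_comm (f a), abs_sub_comm (f' a)]

omit [Fintype V] [DecidableEq V] in
/-- Expansion of the separation indicator into the four type products. -/
theorem sepf_expand {f f' : V → ℝ} (hf : ∀ i, f i = 0 ∨ f i = 1) (hf' : ∀ i, f' i = 0 ∨ f' i = 1)
    (a b : V) :
    sepf f f' a b = (1 - f a) * (1 - f' a) * (f b * f' b) + f a * f' a * ((1 - f b) * (1 - f' b))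
      + (1 - f a) * f' a * (f b * (1 - f' b)) + f a * (1 - f' a) * ((1 - f b) * f' b) := by
  unfold sepf
  rcases hf a with h1 | h1 <;> rcases hf b with h2 | h2 <;> rcases hf' a with h3 | h3 <;>
    rcases hf' b with h4 | h4 <;> rw [h1, h2, h3, h4] <;> norm_num

/-- Probability that the ends of a two-sided path through `i` and `j` are separated by both
cuts, the two arms being drawn from the rows `C i` and `C j`. -/
noncomputable def twoSided (C : Matrix V V ℝ) (f f' : V → ℝ) (i j : V) : ℝ :=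
  ∑ a, ∑ b, C i a * C j b * sepf f f' a b

theorem twoSided_expand (C : Matrix V V ℝ) {f f' : V → ℝ} (hf : ∀ i, f i = 0 ∨ f i = 1)
    (hf' : ∀ i, f' i = 0 ∨ f' i = 1) (i j : V) :
    twoSided C f f' i j
      = (∑ a, C i a * ((1 - f a) * (1 - f' a))) * (∑ b, C j b * (f b * f' b))
        + (∑ a, C i a * (f a * f' a)) * (∑ b, C j b * ((1 - f b) * (1 - f' b)))
        + (∑ a, C i a * ((1 - f a) * f' a)) * (∑ b, C j b * (f b * (1 - f' b)))
        + (∑ a, C i a * (f a * (1 - f' a))) * (∑ b, C j b * ((1 - f b) * f' b)) := by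
  unfold twoSided
  simp only [Finset.sum_mul_sum, ← Finset.sum_add_distrib]
  refine Finset.sum_congr rfl fun a _ => Finset.sum_congr rfl fun b _ => ?_
  rw [sepf_expand hf hf' a b]
  ring

/-- The local step: if both thresholded smoothings change between `i` and `j`, two-sided
paths through the pair are separated by both cuts with probability at least `1/64`. -/
theorem local_step (C : Matrix V V ℝ) (hC0 : ∀ i j, 0 ≤ C i j) (hC1 : ∀ i, ∑ j, C i j = 1)
    {f f' : V → ℝ} (hf : ∀ i, f i = 0 ∨ f i = 1) (hf' : ∀ i, f' i = 0 ∨ f' i = 1) (i j : V)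
    (h1 : psi (∑ l, C i l * f l) ≠ psi (∑ l, C j l * f l))
    (h2 : psi (∑ l, C i l * f' l) ≠ psi (∑ l, C j l * f' l)) :
    1 / 64 ≤ twoSided C f f' i j + twoSided C f f' i i + twoSided C f f' j j := by
  have b0 : ∀ a, 0 ≤ f a ∧ 0 ≤ 1 - f a := by
    intro a; rcases hf a with h | h <;> rw [h] <;> norm_num
  have b0' : ∀ a, 0 ≤ f' a ∧ 0 ≤ 1 - f' a := by
    intro a; rcases hf' a with h | h <;> rw [h] <;> norm_num
  set p00 : V → ℝ := fun k => ∑ a, C k a * ((1 - f a) * (1 - f' a)) with hp00
  set p01 : V → ℝ := fun k => ∑ a, C k a * ((1 - f a) * f' a) with hp01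
  set p10 : V → ℝ := fun k => ∑ a, C k a * (f a * (1 - f' a)) with hp10
  set p11 : V → ℝ := fun k => ∑ a, C k a * (f a * f' a) with hp11
  have n00 : ∀ k, 0 ≤ p00 k := fun k => Finset.sum_nonneg fun a _ =>
    mul_nonneg (hC0 k a) (mul_nonneg (b0 a).2 (b0' a).2)
  have n01 : ∀ k, 0 ≤ p01 k := fun k => Finset.sum_nonneg fun a _ =>
    mul_nonneg (hC0 k a) (mul_nonneg (b0 a).2 (b0' a).1)
  have n10 : ∀ k, 0 ≤ p10 k := fun k => Finset.sum_nonneg fun a _ =>
    mul_nonneg (hC0 k a) (mul_nonneg (b0 a).1 (b0' a).2)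
  have n11 : ∀ k, 0 ≤ p11 k := fun k => Finset.sum_nonneg fun a _ =>
    mul_nonneg (hC0 k a) (mul_nonneg (b0 a).1 (b0' a).1)
  have hsum : ∀ k, p00 k + p01 k + p10 k + p11 k = 1 := by
    intro k
    simp only [hp00, hp01, hp10, hp11, ← Finset.sum_add_distrib]
    trans ∑ a, C k a
    · exact Finset.sum_congr rfl fun a _ => by ring
    · exact hC1 k
  have hS : ∀ k, p10 k + p11 k = ∑ l, C k l * f l := by
    intro k
    simp only [hp10, hp11, ← Finset.sum_add_distrib]
    exact Finset.sum_congr rfl fun a _ => by ring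
  have hS' : ∀ k, p01 k + p11 k = ∑ l, C k l * f' l := by
    intro k
    simp only [hp01, hp11, ← Finset.sum_add_distrib]
    exact Finset.sum_congr rfl fun a _ => by ring
  have key := local_lemma (n00 i) (n01 i) (n10 i) (n11 i) (n00 j) (n01 j) (n10 j) (n11 j)
    (hsum i) (hsum j) (by rw [hS i, hS j]; exact h1) (by rw [hS' i, hS' j]; exact h2)
  have e : ∀ k l, twoSided C f f' k l
      = p00 k * p11 l + p11 k * p00 l + p01 k * p10 l + p10 k * p01 l := by
    intro k l
    rw [twoSided_expand C hf hf' k l]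
  rw [e i j, e i i, e j j]
  linarith

end Vale.Agent.H37
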