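import Vale.Agent.H37.Pair1

/-!
Pair inequality, part 2: from the joint threshold variation to two-sided separation
probabilities of the truncated kernel.
-/

namespace Vale.Agent.H37

open Finset Matrix

variable {V : Type} [Fintype V] [DecidableEq V]
variable {π : V → ℝ} {A : Matrix V V ℝ} {α : ℝ} {G : Matrix V V ℝ}

/-- Joint variation of the two thresholded smoothings across the pair i, j. -/
noncomputable def gam (α : ℝ) (G : Matrix V V ℝ) (f f' : V → ℝ) (i j : V) : ℝ :=
  |psi (smooth α G f i) - psi (smooth α G f j)| * |psi (smooth α G f' i) - psi (smooth α G f' j)|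

/-- Expected one-step joint variation from `i`. -/
noncomputable def phiv (A : Matrix V V ℝ) (α : ℝ) (G : Matrix V V ℝ) (f f' : V → ℝ) (i : V) : ℝ :=
  ∑ j, A i j * gam α G f f' i j

/-- Total joint variation under the stationary edge measure. -/
noncomputable def Etot (π : V → ℝ) (A : Matrix V V ℝ) (α : ℝ) (G : Matrix V V ℝ)
    (f f' : V → ℝ) : ℝ :=
  ∑ i, ∑ j, π i * A i j * gam α G f f' i j

/-- The reward collected on the step from i to j. -/
noncomputable def rew (A : Matrix V V ℝ) (α : ℝ) (G : Matrix V V ℝ) (f f' : V → ℝ) (i j : V) : ℝ :=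
  gam α G f f' i j + 2 * phiv A α G f f' i

/-- Probability that both cuts separate the two ends of an `s`-step stationary path. -/
noncomputable def sepProb (π : V → ℝ) (A : Matrix V V ℝ) (f f' : V → ℝ) (s : ℕ) : ℝ :=
  ∑ a, ∑ b, π a * (A ^ s) a b * sepf f f' a b

omit [DecidableEq V] in
theorem gam_nonneg (α : ℝ) (G : Matrix V V ℝ) (f f' : V → ℝ) (i j : V) :
    0 ≤ gam α G f f' i j :=
  mul_nonneg (abs_nonneg _) (abs_nonneg _)

omit [DecidableEq V] in
theorem gam_comm (α : ℝ) (G : Matrix V V ℝ) (f f' : V → ℝ) (i j : V) :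
    gam α G f f' i j = gam α G f f' j i := by
  unfold gam
  rw [abs_sub_comm (psi (smooth α G f i)), abs_sub_comm (psi (smooth α G f' i))]

omit [DecidableEq V] in
theorem gam_le_one (α : ℝ) (G : Matrix V V ℝ) (f f' : V → ℝ) (i j : V) :
    gam α G f f' i j ≤ 1 := by
  unfold gam
  have b : ∀ x y : ℝ, |psi x - psi y| ≤ 1 := by
    intro x y
    rw [abs_le]
    constructor <;> linarith [psi_nonneg x, psi_nonneg y, psi_le_one x, psi_le_one y]
  calc _ ≤ 1 * 1 := mul_le_mul (b _ _) (b _ _) (abs_nonneg _) (by norm_num)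
    _ = 1 := by norm_num

omit [DecidableEq V] in
theorem gam_le_energy (α : ℝ) (G : Matrix V V ℝ) (f f' : V → ℝ) (i j : V) :
    gam α G f f' i j
      ≤ 2 * (smooth α G f j - smooth α G f i) ^ 2 + 2 * (smooth α G f' j - smooth α G f' i) ^ 2 := by
  unfold gam
  have h1 := psi_lip (smooth α G f i) (smooth α G f j)
  have h2 := psi_lip (smooth α G f' i) (smooth α G f' j)
  have h3 : |psi (smooth α G f i) - psi (smooth α G f j)|
      * |psi (smooth α G f' i) - psi (smooth α G f' j)|
      ≤ (2 * |smooth α G f i - smooth α G f j|) * (2 * |smooth α G f' i - smooth α G f' j|) :=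
    mul_le_mul h1 h2 (abs_nonneg _) (by positivity)
  have e1 : |smooth α G f i - smooth α G f j| ^ 2 = (smooth α G f j - smooth α G f i) ^ 2 := by
    rw [sq_abs]; ring
  have e2 : |smooth α G f' i - smooth α G f' j| ^ 2
      = (smooth α G f' j - smooth α G f' i) ^ 2 := by
    rw [sq_abs]; ring
  nlinarith [sq_nonneg (|smooth α G f i - smooth α G f j| - |smooth α G f' i - smooth α G f' j|)]

theorem phiv_nonneg (h : RevChain π A) (α : ℝ) (G : Matrix V V ℝ) (f f' : V → ℝ) (i : V) :
    0 ≤ phiv A α G f f' i :=
  Finset.sum_nonneg fun j _ => mul_nonneg (h.A_nonneg i j) (gam_nonneg α G f f' i j)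

theorem phiv_le_one (h : RevChain π A) (α : ℝ) (G : Matrix V V ℝ) (f f' : V → ℝ) (i : V) :
    phiv A α G f f' i ≤ 1 := by
  unfold phiv
  calc ∑ j, A i j * gam α G f f' i j ≤ ∑ j, A i j * 1 :=
        Finset.sum_le_sum fun j _ =>
          mul_le_mul_of_nonneg_left (gam_le_one α G f f' i j) (h.A_nonneg i j)
    _ = 1 := by simp only [mul_one]; exact h.A_row i

omit [DecidableEq V] in
theorem Etot_eq (π : V → ℝ) (A : Matrix V V ℝ) (α : ℝ) (G : Matrix V V ℝ) (f f' : V → ℝ) :
    Etot π A α G f f' = ∑ i, π i * phiv A α G f f' i := by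
  unfold Etot phiv
  refine Finset.sum_congr rfl fun i _ => ?_
  rw [Finset.mul_sum]
  exact Finset.sum_congr rfl fun j _ => by ring

theorem Etot_nonneg (h : RevChain π A) (α : ℝ) (G : Matrix V V ℝ) (f f' : V → ℝ) :
    0 ≤ Etot π A α G f f' := by
  rw [Etot_eq]
  exact Finset.sum_nonneg fun i _ => mul_nonneg (h.pi_nonneg i) (phiv_nonneg h α G f f' i)

theorem rew_nonneg (h : RevChain π A) (α : ℝ) (G : Matrix V V ℝ) (f f' : V → ℝ) (i j : V) :
    0 ≤ rew A α G f f' i j := by
  unfold rew
  have := gam_nonneg α G f f' i j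
  have := phiv_nonneg h α G f f' i
  linarith

theorem rew_le (h : RevChain π A) (α : ℝ) (G : Matrix V V ℝ) (f f' : V → ℝ) (i j : V) :
    rew A α G f f' i j ≤ 3 := by
  unfold rew
  have := gam_le_one α G f f' i j
  have := phiv_le_one h α G f f' i
  linarith

theorem twoSided_nonneg (C : Matrix V V ℝ) (hC0 : ∀ i j, 0 ≤ C i j) (f f' : V → ℝ) (i j : V) :
    0 ≤ twoSided C f f' i j :=
  Finset.sum_nonneg fun a _ => Finset.sum_nonneg fun b _ =>
    mul_nonneg (mul_nonneg (hC0 i a) (hC0 j b)) (sepf_nonneg f f' a b)

/-- Step 1 and 2: local lemma summed over the stationary edge measure. -/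
theorem step_local (h : RevChain π A) (hG : IsResolvent π A α G) (hα1 : α < 1)
    {f f' : V → ℝ} (hf : ∀ i, f i = 0 ∨ f i = 1) (hf' : ∀ i, f' i = 0 ∨ f' i = 1) :
    1 / 64 * Etot π A α G f f'
      ≤ ∑ i, ∑ j, π i * A i j * gam α G f f' i j * twoSided (kern α G) f f' i j
        + 2 * ∑ i, π i * phiv A α G f f' i * twoSided (kern α G) f f' i i := by
  set DD := twoSided (kern α G) f f' with hDD
  have hDD0 : ∀ i j, 0 ≤ DD i j := fun i j =>
    twoSided_nonneg _ (fun i j => kern_nonneg hG hα1 i j) f f' i j
  -- pointwise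
  have hpt : ∀ i j, 1 / 64 * gam α G f f' i j
      ≤ gam α G f f' i j * (DD i j + DD i i + DD j j) := by
    intro i j
    have hg0 := gam_nonneg α G f f' i j
    rcases eq_or_lt_of_le hg0 with h0 | hpos
    · rw [← h0]; simp
    · have hne1 : psi (smooth α G f i) ≠ psi (smooth α G f j) := by
        intro e
        unfold gam at hpos
        rw [e] at hpos
        simp at hpos
      have hne2 : psi (smooth α G f' i) ≠ psi (smooth α G f' j) := by
        intro e
        unfold gam at hpos
        rw [e] at hpos
        simp at hpos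
      rw [smooth_eq_kern, smooth_eq_kern] at hne1 hne2
      have := local_step (kern α G) (fun i j => kern_nonneg hG hα1 i j)
        (fun i => kern_row hG hα1 i) hf hf' i j hne1 hne2
      rw [mul_comm]
      exact mul_le_mul_of_nonneg_left this hg0
  -- sum
  have hsum : 1 / 64 * Etot π A α G f f'
      ≤ ∑ i, ∑ j, π i * A i j * (gam α G f f' i j * (DD i j + DD i i + DD j j)) := by
    unfold Etot
    rw [Finset.mul_sum]
    refine Finset.sum_le_sum fun i _ => ?_
    rw [Finset.mul_sum]
    refine Finset.sum_le_sum fun j _ => ?_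
    have := mul_le_mul_of_nonneg_left (hpt i j) (mul_nonneg (h.pi_nonneg i) (h.A_nonneg i j))
    calc 1 / 64 * (π i * A i j * gam α G f f' i j)
        = π i * A i j * (1 / 64 * gam α G f f' i j) := by ring
      _ ≤ _ := this
  have e1 : ∑ i, ∑ j, π i * A i j * (gam α G f f' i j * (DD i j + DD i i + DD j j))
      = ∑ i, ∑ j, π i * A i j * gam α G f f' i j * DD i j
        + ∑ i, ∑ j, π i * A i j * gam α G f f' i j * DD i i
        + ∑ i, ∑ j, π i * A i j * gam α G f f' i j * DD j j := by
    simp only [← Finset.sum_add_distrib]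
    exact Finset.sum_congr rfl fun i _ => Finset.sum_congr rfl fun j _ => by ring
  have e2 : ∑ i, ∑ j, π i * A i j * gam α G f f' i j * DD i i
      = ∑ i, π i * phiv A α G f f' i * DD i i := by
    refine Finset.sum_congr rfl fun i _ => ?_
    unfold phiv
    rw [Finset.mul_sum, Finset.sum_mul]
    exact Finset.sum_congr rfl fun j _ => by ring
  have e3 : ∑ i, ∑ j, π i * A i j * gam α G f f' i j * DD j j
      = ∑ i, π i * phiv A α G f f' i * DD i i := by
    rw [Finset.sum_comm]
    refine Finset.sum_congr rfl fun j _ => ?_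
    unfold phiv
    rw [Finset.mul_sum, Finset.sum_mul]
    refine Finset.sum_congr rfl fun i _ => ?_
    rw [gam_comm α G f f' i j]
    have := h.rev i j
    linear_combination (gam α G f f' j i * DD j j) * this
  rw [e1, e2, e3] at hsum
  linarith

/-- One-step decomposition of the two-sided probability at a vertex. -/
theorem twoSided_self_step (hG : IsResolvent π A α G) (f f' : V → ℝ) (i : V) :
    twoSided (kern α G) f f' i i
      = (1 - α) * ∑ a, kern α G i a * sepf f f' a i
        + α * ∑ k, A i k * twoSided (kern α G) f f' i k := by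
  unfold twoSided
  have e : ∀ a b, kern α G i a * kern α G i b * sepf f f' a b
      = (1 - α) * (kern α G i a * ((if i = b then 1 else 0) * sepf f f' a b))
        + α * ∑ k, A i k * (kern α G i a * kern α G k b * sepf f f' a b) := by
    intro a b
    have hk := kern_step hG i b
    have hs : ∑ k, A i k * (kern α G i a * kern α G k b * sepf f f' a b)
        = kern α G i a * sepf f f' a b * ∑ k, A i k * kern α G k b := by
      rw [Finset.mul_sum]
      exact Finset.sum_congr rfl fun k _ => by ring
    rw [hs]
    calc kern α G i a * kern α G i b * sepf f f' a b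
        = kern α G i a * ((1 - α) * (if i = b then 1 else 0)
            + α * ∑ k, A i k * kern α G k b) * sepf f f' a b := by rw [← hk]
      _ = _ := by ring
  calc ∑ a, ∑ b, kern α G i a * kern α G i b * sepf f f' a b
      = ∑ a, ∑ b, ((1 - α) * (kern α G i a * ((if i = b then 1 else 0) * sepf f f' a b))
        + α * ∑ k, A i k * (kern α G i a * kern α G k b * sepf f f' a b)) :=
        Finset.sum_congr rfl fun a _ => Finset.sum_congr rfl fun b _ => e a b
    _ = (1 - α) * ∑ a, ∑ b, kern α G i a * ((if i = b then 1 else 0) * sepf f f' a b)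
        + α * ∑ a, ∑ b, ∑ k, A i k * (kern α G i a * kern α G k b * sepf f f' a b) := by
        simp only [Finset.sum_add_distrib, Finset.mul_sum]
    _ = _ := by
        congr 1
        · congr 1
          refine Finset.sum_congr rfl fun a _ => ?_
          rw [← Finset.mul_sum]
          congr 1
          simp
        · congr 1
          calc ∑ a, ∑ b, ∑ k, A i k * (kern α G i a * kern α G k b * sepf f f' a b)
              = ∑ a, ∑ k, ∑ b, A i k * (kern α G i a * kern α G k b * sepf f f' a b) :=
                Finset.sum_congr rfl fun a _ => Finset.sum_comm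
            _ = ∑ k, ∑ a, ∑ b, A i k * (kern α G i a * kern α G k b * sepf f f' a b) :=
                Finset.sum_comm
            _ = _ := by
                refine Finset.sum_congr rfl fun k _ => ?_
                rw [Finset.mul_sum]
                refine Finset.sum_congr rfl fun a _ => ?_
                rw [Finset.mul_sum]

/-- Steps 1 to 3 combined. -/
theorem step_edge (h : RevChain π A) (hG : IsResolvent π A α G) (hα0 : 0 ≤ α) (hα1 : α < 1)
    {f f' : V → ℝ} (hf : ∀ i, f i = 0 ∨ f i = 1) (hf' : ∀ i, f' i = 0 ∨ f' i = 1) :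
    1 / 64 * Etot π A α G f f'
      ≤ ∑ i, ∑ j, π i * A i j * rew A α G f f' i j * twoSided (kern α G) f f' i j
        + 2 * (1 - α) * ∑ i, π i * phiv A α G f f' i * ∑ a, kern α G i a * sepf f f' a i := by
  have h1 := step_local h hG hα1 hf hf'
  set DD := twoSided (kern α G) f f' with hDD
  have hDD0 : ∀ i j, 0 ≤ DD i j := fun i j =>
    twoSided_nonneg _ (fun i j => kern_nonneg hG hα1 i j) f f' i j
  have h2 : ∑ i, π i * phiv A α G f f' i * DD i i
      ≤ (1 - α) * ∑ i, π i * phiv A α G f f' i * ∑ a, kern α G i a * sepf f f' a i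
        + ∑ i, ∑ k, π i * A i k * phiv A α G f f' i * DD i k := by
    rw [Finset.mul_sum, ← Finset.sum_add_distrib]
    refine Finset.sum_le_sum fun i _ => ?_
    rw [hDD, twoSided_self_step hG f f' i]
    have hp := h.pi_nonneg i
    have hph := phiv_nonneg h α G f f' i
    have hk : 0 ≤ ∑ k, A i k * twoSided (kern α G) f f' i k :=
      Finset.sum_nonneg fun k _ => mul_nonneg (h.A_nonneg i k) (hDD0 i k)
    have e : ∑ k, π i * A i k * phiv A α G f f' i * twoSided (kern α G) f f' i k
        = π i * phiv A α G f f' i * ∑ k, A i k * twoSided (kern α G) f f' i k := by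
      rw [Finset.mul_sum]
      exact Finset.sum_congr rfl fun k _ => by ring
    rw [e]
    have hle : π i * phiv A α G f f' i * (α * ∑ k, A i k * twoSided (kern α G) f f' i k)
        ≤ π i * phiv A α G f f' i * ∑ k, A i k * twoSided (kern α G) f f' i k := by
      apply mul_le_mul_of_nonneg_left _ (mul_nonneg hp hph)
      nlinarith
    nlinarith
  have e3 : ∑ i, ∑ j, π i * A i j * rew A α G f f' i j * DD i j
      = ∑ i, ∑ j, π i * A i j * gam α G f f' i j * DD i j
        + 2 * ∑ i, ∑ k, π i * A i k * phiv A α G f f' i * DD i k := by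
    rw [Finset.mul_sum, ← Finset.sum_add_distrib]
    refine Finset.sum_congr rfl fun i _ => ?_
    rw [Finset.mul_sum, ← Finset.sum_add_distrib]
    refine Finset.sum_congr rfl fun j _ => ?_
    unfold rew
    ring
  rw [e3]
  linarith

/-- Truncation of the two-sided probability. -/
theorem twoSided_trunc (h : RevChain π A) (hG : IsResolvent π A α G) (hα0 : 0 ≤ α) (hα1 : α < 1)
    {f f' : V → ℝ} (hf : ∀ i, f i = 0 ∨ f i = 1) (hf' : ∀ i, f' i = 0 ∨ f' i = 1)
    (K : ℕ) (i j : V) :
    twoSided (kern α G) f f' i j ≤ twoSided (kernK α A K) f f' i j + 2 * α ^ K := by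
  unfold twoSided
  have hpt : ∀ a b, kern α G i a * kern α G j b * sepf f f' a b
      ≤ kernK α A K i a * kernK α A K j b * sepf f f' a b
        + ((kern α G i a - kernK α A K i a) * kern α G j b
          + kern α G i a * (kern α G j b - kernK α A K j b)) := by
    intro a b
    have x0 := kernK_nonneg h hα0 hα1 K i a
    have y0 := kernK_nonneg h hα0 hα1 K j b
    have x1 := kernK_le hG h hα0 hα1 K i a
    have y1 := kernK_le hG h hα0 hα1 K j b
    have s0 := sepf_nonneg f f' a b
    have s1 := sepf_le_one hf hf' a b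
    have d0 : 0 ≤ kern α G i a * kern α G j b - kernK α A K i a * kernK α A K j b := by
      nlinarith
    have d1 : (kern α G i a * kern α G j b - kernK α A K i a * kernK α A K j b) * sepf f f' a b
        ≤ kern α G i a * kern α G j b - kernK α A K i a * kernK α A K j b := by
      nlinarith
    nlinarith
  have hsum : ∑ a, ∑ b, kern α G i a * kern α G j b * sepf f f' a b
      ≤ ∑ a, ∑ b, (kernK α A K i a * kernK α A K j b * sepf f f' a b
        + ((kern α G i a - kernK α A K i a) * kern α G j b
          + kern α G i a * (kern α G j b - kernK α A K j b))) :=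
    Finset.sum_le_sum fun a _ => Finset.sum_le_sum fun b _ => hpt a b
  have e : ∑ a, ∑ b, (kernK α A K i a * kernK α A K j b * sepf f f' a b
        + ((kern α G i a - kernK α A K i a) * kern α G j b
          + kern α G i a * (kern α G j b - kernK α A K j b)))
      = ∑ a, ∑ b, kernK α A K i a * kernK α A K j b * sepf f f' a b
        + ((∑ a, (kern α G i a - kernK α A K i a)) * ∑ b, kern α G j b)
        + (∑ a, kern α G i a) * ∑ b, (kern α G j b - kernK α A K j b) := by
    simp only [Finset.sum_add_distrib, Finset.sum_mul_sum]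
    ring
  rw [e, kern_sub_row hG h hα1 K i, kern_sub_row hG h hα1 K j, kern_row hG hα1 i,
    kern_row hG hα1 j] at hsum
  linarith

/-- Truncation of the one-sided probability. -/
theorem oneSided_trunc (h : RevChain π A) (hG : IsResolvent π A α G) (hα0 : 0 ≤ α) (hα1 : α < 1)
    {f f' : V → ℝ} (hf : ∀ i, f i = 0 ∨ f i = 1) (hf' : ∀ i, f' i = 0 ∨ f' i = 1)
    (K : ℕ) (i : V) :
    ∑ a, kern α G i a * sepf f f' a i ≤ ∑ a, kernK α A K i a * sepf f f' a i + α ^ K := by
  have hpt : ∀ a, kern α G i a * sepf f f' a i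
      ≤ kernK α A K i a * sepf f f' a i + (kern α G i a - kernK α A K i a) := by
    intro a
    have x1 := kernK_le hG h hα0 hα1 K i a
    have s0 := sepf_nonneg f f' a i
    have s1 := sepf_le_one hf hf' a i
    nlinarith
  have := Finset.sum_le_sum fun a (_ : a ∈ Finset.univ) => hpt a
  rw [Finset.sum_add_distrib, kern_sub_row hG h hα1 K i] at this
  exact this

end Vale.Agent.H37
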