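import Vale.Agent.H37.Pair2
import Vale.Agent.H37.PathCS

/-!
Pair inequality, part 3: two-sided probabilities of the truncated kernel as path sums.
-/

namespace Vale.Agent.H37

open Finset Matrix

variable {V : Type} [Fintype V] [DecidableEq V]
variable {π : V → ℝ} {A : Matrix V V ℝ} {α : ℝ} {G : Matrix V V ℝ}

omit [DecidableEq V] in
theorem sum4_reorder (F : V → V → V → V → ℝ) :
    ∑ i, ∑ j, ∑ a, ∑ b, F i j a b = ∑ a, ∑ b, ∑ j, ∑ i, F i j a b := by
  calc ∑ i, ∑ j, ∑ a, ∑ b, F i j a b = ∑ i, ∑ a, ∑ j, ∑ b, F i j a b :=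
        Finset.sum_congr rfl fun i _ => Finset.sum_comm
    _ = ∑ a, ∑ i, ∑ j, ∑ b, F i j a b := Finset.sum_comm
    _ = ∑ a, ∑ i, ∑ b, ∑ j, F i j a b :=
        Finset.sum_congr rfl fun a _ => Finset.sum_congr rfl fun i _ => Finset.sum_comm
    _ = ∑ a, ∑ b, ∑ i, ∑ j, F i j a b := Finset.sum_congr rfl fun a _ => Finset.sum_comm
    _ = ∑ a, ∑ b, ∑ j, ∑ i, F i j a b :=
        Finset.sum_congr rfl fun a _ => Finset.sum_congr rfl fun b _ => Finset.sum_comm

/-- Sum of the first `K` powers. -/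
noncomputable def powSum (A : Matrix V V ℝ) (K : ℕ) : Matrix V V ℝ := ∑ l ∈ Finset.range K, A ^ l

theorem powSum_apply (A : Matrix V V ℝ) (K : ℕ) (i j : V) :
    powSum A K i j = ∑ l ∈ Finset.range K, (A ^ l) i j := by
  unfold powSum
  rw [Matrix.sum_apply]

theorem powSum_nonneg (h : RevChain π A) (K : ℕ) (i j : V) : 0 ≤ powSum A K i j := by
  rw [powSum_apply]
  exact Finset.sum_nonneg fun l _ => h.pow_nonneg l i j

theorem powSum_rev (h : RevChain π A) (K : ℕ) (i j : V) :
    π i * powSum A K i j = π j * powSum A K j i := by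
  rw [powSum_apply, powSum_apply, Finset.mul_sum, Finset.mul_sum]
  exact Finset.sum_congr rfl fun l _ => h.pow_rev l i j

theorem kernK_le_powSum (h : RevChain π A) (hα0 : 0 ≤ α) (hα1 : α ≤ 1) (K : ℕ) (i j : V) :
    kernK α A K i j ≤ (1 - α) * powSum A K i j := by
  unfold kernK
  rw [powSum_apply]
  apply mul_le_mul_of_nonneg_left _ (by linarith)
  refine Finset.sum_le_sum fun k _ => ?_
  have h1 : α ^ k ≤ 1 := pow_le_one₀ hα0 hα1
  have h2 := h.pow_nonneg k i j
  nlinarith

/-- Two-sided sums through an edge measure `π i Φ i j` are path sums through `M Φ N`. -/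
theorem twoSided_path (M N Φ : Matrix V V ℝ) (hM : ∀ i a, π i * M i a = π a * M a i)
    (S : V → V → ℝ) :
    ∑ i, ∑ j, π i * Φ i j * (∑ a, ∑ b, M i a * N j b * S a b)
      = ∑ a, ∑ b, π a * (M * Φ * N) a b * S a b := by
  have e1 : ∀ i j, π i * Φ i j * (∑ a, ∑ b, M i a * N j b * S a b)
      = ∑ a, ∑ b, π a * M a i * Φ i j * N j b * S a b := by
    intro i j
    rw [Finset.mul_sum]
    refine Finset.sum_congr rfl fun a _ => ?_
    rw [Finset.mul_sum]
    refine Finset.sum_congr rfl fun b _ => ?_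
    have := hM i a
    linear_combination (Φ i j * N j b * S a b) * this
  have e2 : ∀ a b, π a * (M * Φ * N) a b * S a b
      = ∑ j, ∑ i, π a * M a i * Φ i j * N j b * S a b := by
    intro a b
    rw [Matrix.mul_apply, Finset.mul_sum, Finset.sum_mul]
    refine Finset.sum_congr rfl fun j _ => ?_
    rw [Matrix.mul_apply, Finset.sum_mul, Finset.mul_sum, Finset.sum_mul]
    exact Finset.sum_congr rfl fun i _ => by ring
  simp only [e1, e2]
  exact sum4_reorder (fun i j a b => π a * M a i * Φ i j * N j b * S a b)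

/-- Reindexing a square of a nonnegative double sequence along antidiagonals. -/
theorem reindex_sq (J : ℕ → ℕ → ℝ) (hJ : ∀ l m, 0 ≤ J l m) (K : ℕ) :
    ∑ l ∈ Finset.range K, ∑ m ∈ Finset.range K, J l m
      ≤ ∑ s ∈ Finset.Icc 1 (2 * K), ∑ l ∈ Finset.range s, J l (s - 1 - l) := by
  -- inner: for fixed l
  have h1 : ∀ l ∈ Finset.range K, ∑ m ∈ Finset.range K, J l m
      ≤ ∑ s ∈ Finset.Icc 1 (2 * K), (if l < s ∧ s - 1 - l < K then J l (s - 1 - l) else 0) := by
    intro l hl
    rw [Finset.mem_range] at hl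
    rw [← Finset.sum_filter]
    have himg : ∑ m ∈ Finset.range K, J l m
        = ∑ s ∈ (Finset.range K).image (fun m => l + m + 1), J l (s - 1 - l) := by
      rw [Finset.sum_image]
      · refine Finset.sum_congr rfl fun m _ => ?_
        congr 1
        omega
      · intro x _ y _ hxy
        simp only at hxy
        omega
    rw [himg]
    apply Finset.sum_le_sum_of_subset_of_nonneg
    · intro s hs
      rw [Finset.mem_image] at hs
      obtain ⟨m, hm, rfl⟩ := hs
      rw [Finset.mem_range] at hm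
      rw [Finset.mem_filter, Finset.mem_Icc]
      refine ⟨⟨by omega, by omega⟩, by omega, by omega⟩
    · intro s _ _
      exact hJ _ _
  have h2 : ∀ s ∈ Finset.Icc 1 (2 * K),
      ∑ l ∈ Finset.range K, (if l < s ∧ s - 1 - l < K then J l (s - 1 - l) else 0)
        ≤ ∑ l ∈ Finset.range s, J l (s - 1 - l) := by
    intro s _
    rw [← Finset.sum_filter]
    apply Finset.sum_le_sum_of_subset_of_nonneg
    · intro l hl
      rw [Finset.mem_filter] at hl
      rw [Finset.mem_range]
      exact hl.2.1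
    · intro l _ _
      exact hJ _ _
  calc ∑ l ∈ Finset.range K, ∑ m ∈ Finset.range K, J l m
      ≤ ∑ l ∈ Finset.range K, ∑ s ∈ Finset.Icc 1 (2 * K),
          (if l < s ∧ s - 1 - l < K then J l (s - 1 - l) else 0) := Finset.sum_le_sum h1
    _ = ∑ s ∈ Finset.Icc 1 (2 * K), ∑ l ∈ Finset.range K,
          (if l < s ∧ s - 1 - l < K then J l (s - 1 - l) else 0) := Finset.sum_comm
    _ ≤ _ := Finset.sum_le_sum h2

/-- Entrywise: the square of the power sum, with `Φ` in the middle, is dominated by the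
first-moment kernels. -/
theorem powSum_mul_le (h : RevChain π A) (Φ : Matrix V V ℝ) (hΦ : ∀ i j, 0 ≤ Φ i j) (K : ℕ)
    (a b : V) :
    (powSum A K * Φ * powSum A K) a b ≤ ∑ s ∈ Finset.Icc 1 (2 * K), pathM1 A Φ s a b := by
  have e1 : (powSum A K * Φ * powSum A K) a b
      = ∑ l ∈ Finset.range K, ∑ m ∈ Finset.range K, (A ^ l * Φ * A ^ m) a b := by
    unfold powSum
    rw [Finset.sum_mul, Finset.sum_mul, Matrix.sum_apply]
    refine Finset.sum_congr rfl fun l _ => ?_
    rw [Finset.mul_sum, Matrix.sum_apply]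
  have e2 : ∀ s, pathM1 A Φ s a b = ∑ l ∈ Finset.range s, (A ^ l * Φ * A ^ (s - 1 - l)) a b := by
    intro s
    rw [pathM1_eq, Matrix.sum_apply]
  rw [e1]
  simp only [e2]
  apply reindex_sq (fun l m => (A ^ l * Φ * A ^ m) a b)
  intro l m
  rw [Matrix.mul_apply]
  refine Finset.sum_nonneg fun j _ => mul_nonneg ?_ (h.pow_nonneg m j b)
  rw [Matrix.mul_apply]
  exact Finset.sum_nonneg fun i _ => mul_nonneg (h.pow_nonneg l a i) (hΦ i j)

end Vale.Agent.H37
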