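import Vale.Agent.H37.Pair4a
import Vale.Agent.H37.Pair4b
import Vale.Agent.H37.Pair4c
import Vale.Agent.H37.Pair4d
import Vale.Agent.H37.Pair4e

/-!
Pair inequality, part 4: assembly.
-/

namespace Vale.Agent.H37

open Finset Matrix

variable {V : Type} [Fintype V] [DecidableEq V]
variable {π : V → ℝ} {A : Matrix V V ℝ} {α : ℝ} {G : Matrix V V ℝ}

/-- The pair inequality for a general parameter `α` and truncation level `K`. -/
theorem pair_general (h : RevChain π A) (hG : IsResolvent π A α G) (hα0 : 1 / 2 ≤ α)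
    (hα1 : α < 1) (K : ℕ) (hpow : α ^ K ≤ 1 / 2048) (hK11 : (1 - α) * (K : ℝ) = 11)
    (hexp : (1 / α) ^ (2 * K) ≤ Real.exp 44)
    {f f' : V → ℝ} (hf : ∀ i, f i = 0 ∨ f i = 1) (hf' : ∀ i, f' i = 0 ∨ f' i = 1) :
    Etot π A α G f f'
      ≤ pairConst * (1 - α) ^ 2 * ∑ s ∈ Finset.Icc 1 (2 * K), sepProb π A f f' s := by
  have hα0' : 0 ≤ α := by linarith
  have hE0 : 0 ≤ Etot π A α G f f' := Etot_nonneg h α G f f'
  have hP0 : 0 ≤ ∑ s ∈ Finset.Icc 1 (2 * K), sepProb π A f f' s :=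
    Finset.sum_nonneg fun s _ => sepProb_nonneg h f f' s
  have hαK0 : 0 ≤ α ^ K := pow_nonneg hα0' K
  have h1 := step_edge h hG hα0' hα1 hf hf'
  -- first term: truncation
  have hA1 : ∑ i, ∑ j, π i * A i j * rew A α G f f' i j * twoSided (kern α G) f f' i j
      ≤ ∑ i, ∑ j, π i * A i j * rew A α G f f' i j * twoSided (kernK α A K) f f' i j
        + 2 * α ^ K * (3 * Etot π A α G f f') := by
    have hsum := sum_rew h α G f f'
    rw [← hsum, Finset.mul_sum, ← Finset.sum_add_distrib]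
    refine Finset.sum_le_sum fun i _ => ?_
    rw [Finset.mul_sum, ← Finset.sum_add_distrib]
    refine Finset.sum_le_sum fun j _ => ?_
    have ht := twoSided_trunc h hG hα0' hα1 hf hf' K i j
    have hw : 0 ≤ π i * A i j * rew A α G f f' i j :=
      mul_nonneg (mul_nonneg (h.pi_nonneg i) (h.A_nonneg i j)) (rew_nonneg h α G f f' i j)
    have e : 2 * α ^ K * (π i * rewM A α G f f' i j)
        = π i * A i j * rew A α G f f' i j * (2 * α ^ K) := by
      unfold rewM; ring
    rw [e, ← mul_add]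
    exact mul_le_mul_of_nonneg_left ht hw
  -- second term: truncation
  have hA2 : ∑ i, π i * phiv A α G f f' i * ∑ a, kern α G i a * sepf f f' a i
      ≤ ∑ i, π i * ∑ a, kernK α A K i a * sepf f f' a i + α ^ K * Etot π A α G f f' := by
    rw [Etot_eq, Finset.mul_sum, ← Finset.sum_add_distrib]
    refine Finset.sum_le_sum fun i _ => ?_
    have ht := oneSided_trunc h hG hα0' hα1 hf hf' K i
    have hp0 := phiv_nonneg h α G f f' i
    have hp1 := phiv_le_one h α G f f' i
    have hq0 : 0 ≤ ∑ a, kernK α A K i a * sepf f f' a i :=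
      Finset.sum_nonneg fun a _ =>
        mul_nonneg (kernK_nonneg h hα0' hα1 K i a) (sepf_nonneg f f' a i)
    have hπ := h.pi_nonneg i
    have s1 : π i * phiv A α G f f' i * ∑ a, kern α G i a * sepf f f' a i
        ≤ π i * phiv A α G f f' i * (∑ a, kernK α A K i a * sepf f f' a i + α ^ K) :=
      mul_le_mul_of_nonneg_left ht (mul_nonneg hπ hp0)
    have s2 : π i * phiv A α G f f' i ≤ π i := by
      have := mul_le_mul_of_nonneg_left hp1 hπ
      linarith
    have s3 : π i * phiv A α G f f' i * (∑ a, kernK α A K i a * sepf f f' a i)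
        ≤ π i * (∑ a, kernK α A K i a * sepf f f' a i) :=
      mul_le_mul_of_nonneg_right s2 hq0
    linarith
  have hq := qK_sum h hα0' hα1.le f f' K
  have hpath := path_term h hα0' hα1.le G f f' K
  -- potential bound and Cauchy-Schwarz
  have hQ0 : 0 < 24 * Real.exp 44 := by positivity
  have hpot : ∀ s, s ≤ 2 * K → ∀ j,
      ∑ k ∈ Finset.range s, ∑ l, (A ^ k) j l * ∑ j', rewM A α G f f' l j'
        ≤ 24 * Real.exp 44 := by
    intro s hs j
    have := potential_bound h hG hα0 hα1 hf hf' (2 * K) s hs j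
    linarith
  have hβ0 : 0 < 185856 * (3 + 2 * (24 * Real.exp 44)) := by positivity
  have hcs : ∑ s ∈ Finset.Icc 1 (2 * K), ∑ a, ∑ b,
        π a * pathM1 A (rewM A α G f f') s a b * sepf f f' a b
      ≤ 185856 * (3 + 2 * (24 * Real.exp 44)) / 2
          * ∑ s ∈ Finset.Icc 1 (2 * K), sepProb π A f f' s
        + 3 * Etot π A α G f f' / 371712 * ∑ s ∈ Finset.Icc 1 (2 * K), (s : ℝ) := by
    rw [Finset.mul_sum, Finset.mul_sum, ← Finset.sum_add_distrib]
    refine Finset.sum_le_sum fun s hs => ?_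
    rw [Finset.mem_Icc] at hs
    have := cs_step h α G hf hf' (2 * K) hpot hβ0 s hs.2
    have e : 1 / (2 * (185856 * (3 + 2 * (24 * Real.exp 44))))
        * ((s : ℝ) * (3 + 2 * (24 * Real.exp 44)) * (3 * Etot π A α G f f'))
        = 3 * Etot π A α G f f' / 371712 * (s : ℝ) := by
      have : (3 : ℝ) + 2 * (24 * Real.exp 44) ≠ 0 := by positivity
      field_simp
      ring
    rw [e] at this
    exact this
  have hsumS : ∑ s ∈ Finset.Icc 1 (2 * K), (s : ℝ) ≤ 4 * (K : ℝ) ^ 2 := by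
    calc ∑ s ∈ Finset.Icc 1 (2 * K), (s : ℝ)
        ≤ ∑ s ∈ Finset.Icc 1 (2 * K), (2 * (K : ℝ)) := by
          refine Finset.sum_le_sum fun s hs => ?_
          rw [Finset.mem_Icc] at hs
          exact_mod_cast hs.2
      _ = 4 * (K : ℝ) ^ 2 := by
          rw [Finset.sum_const, Nat.card_Icc]
          simp
          ring
  -- assemble
  set E := Etot π A α G f f' with hE
  set P := ∑ s ∈ Finset.Icc 1 (2 * K), sepProb π A f f' s with hP
  set PM := ∑ s ∈ Finset.Icc 1 (2 * K), ∑ a, ∑ b,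
        π a * pathM1 A (rewM A α G f f') s a b * sepf f f' a b with hPM
  set SS := ∑ s ∈ Finset.Icc 1 (2 * K), (s : ℝ) with hSS
  set T1 := ∑ i, ∑ j, π i * A i j * rew A α G f f' i j * twoSided (kern α G) f f' i j
  set T1K := ∑ i, ∑ j, π i * A i j * rew A α G f f' i j * twoSided (kernK α A K) f f' i j
  set T2 := ∑ i, π i * phiv A α G f f' i * ∑ a, kern α G i a * sepf f f' a i
  set T2K := ∑ i, π i * ∑ a, kernK α A K i a * sepf f f' a i
  set β := 185856 * (3 + 2 * (24 * Real.exp 44)) with hβ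
  have hx0 : 0 ≤ 1 - α := by linarith
  have hx1 : 1 - α ≤ 1 / 2 := by linarith
  have hx2 : 0 ≤ (1 - α) ^ 2 := sq_nonneg _
  -- (1-α)^2 * PM
  have k1 : (1 - α) ^ 2 * PM ≤ (1 - α) ^ 2 * (β / 2 * P + 3 * E / 371712 * SS) :=
    mul_le_mul_of_nonneg_left hcs hx2
  have k2 : (1 - α) ^ 2 * (3 * E / 371712 * SS) ≤ E / 256 := by
    have a1 : 3 * E / 371712 * SS ≤ 3 * E / 371712 * (4 * (K : ℝ) ^ 2) :=
      mul_le_mul_of_nonneg_left hsumS (by positivity)
    have a2 := mul_le_mul_of_nonneg_left a1 hx2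
    have a3 : (1 - α) ^ 2 * (3 * E / 371712 * (4 * (K : ℝ) ^ 2))
        = ((1 - α) * (K : ℝ)) ^ 2 * (3 * E / 371712 * 4) := by ring
    rw [a3, hK11] at a2
    linarith
  have k3 : α ^ K * E ≤ E / 2048 := by
    have := mul_le_mul_of_nonneg_right hpow hE0
    linarith
  have k4 : (1 - α) * T2 ≤ (1 - α) * (T2K + α ^ K * E) := mul_le_mul_of_nonneg_left hA2 hx0
  have k5 : (1 - α) * T2K ≤ (1 - α) * ((1 - α) * P) := mul_le_mul_of_nonneg_left hq hx0
  have k6 : (1 - α) * (α ^ K * E) ≤ α ^ K * E := by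
    have : 0 ≤ α ^ K * E := mul_nonneg hαK0 hE0
    nlinarith
  have k7 : E / 128 ≤ (1 - α) ^ 2 * (β / 2 + 2) * P := by
    have e1 : (1 - α) ^ 2 * (β / 2 * P + 3 * E / 371712 * SS)
        = (1 - α) ^ 2 * (β / 2) * P + (1 - α) ^ 2 * (3 * E / 371712 * SS) := by ring
    have e2 : (1 - α) * ((1 - α) * P) = (1 - α) ^ 2 * P := by ring
    have e3 : (1 - α) * (T2K + α ^ K * E) = (1 - α) * T2K + (1 - α) * (α ^ K * E) := by ring
    have e4 : (1 - α) ^ 2 * (β / 2 + 2) * P
        = (1 - α) ^ 2 * (β / 2) * P + 2 * ((1 - α) ^ 2 * P) := by ring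
    rw [e4]
    linarith
  have k8 : pairConst * (1 - α) ^ 2 * P = 128 * ((1 - α) ^ 2 * (β / 2 + 2) * P) := by
    unfold pairConst
    rw [hβ]
    ring
  rw [k8]
  linarith

/-- The pair inequality at time scale `t`, for every finite reversible chain. -/
theorem pair_all : ∀ (V : Type) [Fintype V] [DecidableEq V] (π : V → ℝ) (A : Matrix V V ℝ),
    RevChain π A → ∀ (t : ℕ), 1 ≤ t → ∀ (G : Matrix V V ℝ),
      IsResolvent π A ((t : ℝ) / (t + 1)) G → PairIneq π A t G := by
  intro V _ _ π A h t ht G hG f f' hf hf'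
  have hg := pair_general h hG (alpha_half t ht) (alpha_lt_one t) (11 * (t + 1))
    (alpha_pow_small t ht) (one_sub_alpha_mul t) (alpha_inv_pow t ht) hf hf'
  rw [one_sub_alpha] at hg
  have e : 2 * (11 * (t + 1)) = 22 * (t + 1) := by ring
  rw [e] at hg
  exact hg

end Vale.Agent.H37
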