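import Vale.Agent.H37.Pair3
import Vale.Agent.H37.PairStmt

/-!
Pair inequality, part 4: the reward matrices (definitions used by the remaining lemmas).
-/

namespace Vale.Agent.H37

open Finset Matrix

variable {V : Type} [Fintype V] [DecidableEq V]
variable {π : V → ℝ} {A : Matrix V V ℝ} {α : ℝ} {G : Matrix V V ℝ}

/-- The reward matrix: `A i j` times the reward of the step. -/
noncomputable def rewM (A : Matrix V V ℝ) (α : ℝ) (G : Matrix V V ℝ) (f f' : V → ℝ) :
    Matrix V V ℝ := fun i j => A i j * rew A α G f f' i j

/-- The squared reward matrix. -/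
noncomputable def rewM2 (A : Matrix V V ℝ) (α : ℝ) (G : Matrix V V ℝ) (f f' : V → ℝ) :
    Matrix V V ℝ := fun i j => A i j * rew A α G f f' i j ^ 2

end Vale.Agent.H37
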